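import Mathlib

/-!
# P300L, block LEF: definitions
-/

open scoped Topology unitInterval
open Set Filter Function

namespace Vale.Agent.P300LF

variable {W : Type} [TopologicalSpace W]

/-- near `p` we have `ρ = exp f` in a chart, and the Hessian of `f` is negative on a `3`-plane -/
def Cav (ρ : W → ℝ) (p : W) : Prop :=
  ∃ (E : Type) (_ : NormedAddCommGroup E) (_ : NormedSpace ℝ E) (_ : FiniteDimensional ℝ E)
    (e : OpenPartialHomeomorph W E) (f : E → ℝ) (i : (Fin 3 → ℝ) →ₗ[ℝ] E),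
    p ∈ e.source ∧ ContDiffAt ℝ 2 f (e p) ∧ (∀ᶠ w in 𝓝 p, ρ w = Real.exp (f (e w))) ∧
      ∀ u, u ≠ 0 → fderiv ℝ (fderiv ℝ f) (e p) (i u) (i u) < 0

/-- near `p` the zero set of `ρ` is the zero set of a submersion -/
def Sub (ρ : W → ℝ) (p : W) : Prop :=
  ∃ (E : Type) (_ : NormedAddCommGroup E) (_ : NormedSpace ℝ E) (_ : FiniteDimensional ℝ E)
    (F : Type) (_ : NormedAddCommGroup F) (_ : NormedSpace ℝ F) (_ : FiniteDimensional ℝ F)
    (e : OpenPartialHomeomorph W E) (G : E → F) (G' : E →L[ℝ] F),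
    p ∈ e.source ∧ HasStrictFDerivAt G G' (e p) ∧ Surjective G' ∧
      ∀ᶠ w in 𝓝 p, (ρ w = 0 ↔ G (e w) = 0)

/-- the data of the Lefschetz theorem -/
structure Lf (ρ : W → ℝ) : Prop where
  t2 : T2Space W
  cont : Continuous ρ
  nonneg : ∀ w, 0 ≤ ρ w
  cpt : ∀ c, IsCompact {w | ρ w ≤ c}
  top : ∀ p, 0 < ρ p → Cav ρ p
  bot : ∀ p, ρ p = 0 → Sub ρ p

/-- every square can be replaced by a square in the zero set, with the same points there -/
def Push (ρ : W → ℝ) : Prop :=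
  ∀ D : C(I × I, W), ∃ D' : C(I × I, W), (∀ x, ρ (D' x) = 0) ∧ ∀ x, ρ (D x) = 0 → D' x = D x

end Vale.Agent.P300LF
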