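import Vale.Agent.P300LF.Top

/-!
# P300L, block LEF: the Lefschetz theorem
-/

set_option linter.all false

open scoped Topology unitInterval
open Set Filter Function Metric

noncomputable section

namespace Vale.Agent.P300LF

section
variable {E : Type} [NormedAddCommGroup E] [NormedSpace ℝ E] {f : E → ℝ}

theorem neg_near {x0 : E} (hf : ContDiffAt ℝ 2 f x0) (i : N3 →L[ℝ] E)
    (h : ∀ u, u ≠ 0 → fderiv ℝ (fderiv ℝ f) x0 (i u) (i u) < 0) :
    ∀ᶠ x in 𝓝 x0, ContDiffAt ℝ 2 f x ∧ ∀ u, u ≠ 0 → fderiv ℝ (fderiv ℝ f) x (i u) (i u) < 0 := by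
  have c : ContinuousAt (fderiv ℝ (fderiv ℝ f)) x0 :=
    ((hf.fderiv_right (m := 1) (by norm_num)).fderiv_right (m := 0) (by norm_num)).continuousAt
  have k := (isCompact_sphere (0 : N3) 1).eventually_forall_of_forall_eventually (x₀ := x0)
    (P := fun x u => fderiv ℝ (fderiv ℝ f) x (i u) (i u) < 0) fun u hu => by
      have a : ContinuousAt (fun z : E × N3 => i z.2) (x0, u) := by fun_prop
      exact (((c.comp_of_eq continuousAt_fst rfl).clm_apply a).clm_apply a).eventually
        (gt_mem_nhds (h u fun z => by simp [z] at hu))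
  filter_upwards [hf.eventually (by simp), k] with x a b
  refine ⟨a, fun u hu => ?_⟩
  have p := norm_pos_iff.2 hu
  have := b (‖u‖⁻¹ • u) (by simp [norm_smul, p.ne'])
  simp only [map_smul, ContinuousLinearMap.smul_apply, smul_eq_mul] at this
  exact neg_of_mul_neg_right (neg_of_mul_neg_right this (inv_pos.2 p).le) (inv_pos.2 p).le

theorem line {a v : E} (h : ∀ s ∈ Icc (0 : ℝ) 1, ContDiffAt ℝ 2 f (a + s • v) ∧
    fderiv ℝ (fderiv ℝ f) (a + s • v) v v < 0) {s : ℝ} (hs : s ∈ Ioo (0 : ℝ) 1) :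
    min (f a) (f (a + v)) < f (a + s • v) := by
  have l : ∀ s : ℝ, HasDerivAt (fun s : ℝ => a + s • v) v s := fun s => by
    simpa using ((hasDerivAt_id s).smul_const v).const_add a
  have d2 : ∀ s ∈ Icc (0 : ℝ) 1, deriv (deriv fun s : ℝ => f (a + s • v)) s < 0 := fun s m => by
    have e : deriv (fun s : ℝ => f (a + s • v)) =ᶠ[𝓝 s] fun s => fderiv ℝ f (a + s • v) v := by
      filter_upwards [(l s).continuousAt.eventually ((h s m).1.eventually (by simp))] with t b
      exact ((b.differentiableAt (by simp)).hasFDerivAt.comp_hasDerivAt t (l t)).deriv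
    have d0 : HasDerivAt (fun s : ℝ => fderiv ℝ f (a + s • v))
        (fderiv ℝ (fderiv ℝ f) (a + s • v) v) s :=
      (((h s m).1.fderiv_right (m := 1) (by norm_num)).differentiableAt
        (by simp)).hasFDerivAt.comp_hasDerivAt s (l s)
    have d : HasDerivAt (fun s : ℝ => fderiv ℝ f (a + s • v) v)
        (fderiv ℝ (fderiv ℝ f) (a + s • v) v v) s := by
      simpa using d0.clm_apply (hasDerivAt_const s v)
    rw [e.deriv_eq, d.deriv]
    exact (h s m).2
  have c : ContinuousOn (fun s : ℝ => f (a + s • v)) (Icc 0 1) := fun s m =>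
    (ContinuousAt.comp (g := f) (f := fun s : ℝ => a + s • v) (h s m).1.continuousAt (l s).continuousAt).continuousWithinAt
  have k := (strictConcaveOn_of_deriv2_neg' (convex_Icc _ _) c d2).lt_on_openSegment
    (left_mem_Icc.2 zero_le_one) (right_mem_Icc.2 zero_le_one) zero_ne_one
    (by rwa [openSegment_eq_Ioo zero_lt_one])
  simpa using k

end

variable {W : Type} [TopologicalSpace W] {ρ : W → ℝ} {p : W}

theorem Cav.bx (h : Cav ρ p) : Bx ρ p := by
  obtain ⟨E, _, _, _, e, f, i, hp, hf, ev, ng⟩ := h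
  obtain ⟨g, hg⟩ := i.exists_leftInverse_of_injective (LinearMap.ker_eq_bot'.2 fun u z => by
    by_contra n
    simpa [z] using ng u n)
  let L := ContinuousLinearEquiv.equivOfRightInverse g.toContinuousLinearMap
    i.toContinuousLinearMap fun u => LinearMap.congr_fun hg u
  have c : Tendsto L.symm (𝓝 (L (e p))) (𝓝 (e p)) := L.symm.continuous.tendsto' _ _ (L.symm_apply_apply _)
  obtain ⟨R, hR, k⟩ := nhds_basis_closedBall.eventually_iff.1 (c.eventually
    (((neg_near hf i.toContinuousLinearMap ng).and ((e.tendsto_symm hp).eventually ev)).and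
      (e.open_target.mem_nhds (e.map_source hp))))
  have r : ∀ m ∈ closedBall (L (e p)) R, ρ (e.symm (L.symm m)) = Real.exp (f (L.symm m)) :=
    fun m a => by rw [(k a).1.2, e.right_inv (k a).2]
  refine ⟨_, inferInstance, inferInstance, e.transHomeomorph L.toHomeomorph, R / 3, by linarith, hp,
    ?_⟩
  rw [show 3 * (R / 3) = R by ring]
  refine ⟨fun m a => (k a).2, fun m a => (r m a).symm ▸ (Real.exp_pos _).ne',
    fun t ht a ha b hb n c hc => ?_⟩
  have pr : ∀ {s : N3}, s ∈ closedBall (L (e p)).1 R → (s, t) ∈ closedBall (L (e p)) R :=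
    fun m => by rw [← closedBall_prod_same]; exact ⟨m, ht⟩
  have cv := convex_closedBall (L (e p)).1 R
  have q : ∀ s : ℝ, L.symm (a + s • (b - a), t) = L.symm (a, t) + s • i (b - a) := fun s => by
    show i (a + s • (b - a)) + (t : E) = i a + t + _
    rw [map_add, map_smul, add_right_comm]
  have hc' := cv.openSegment_subset ha hb hc
  rw [openSegment_eq_image'] at hc
  obtain ⟨s, hs, rfl⟩ := hc
  have m := line (f := f) (a := L.symm (a, t)) (v := i (b - a)) (fun s m => by
    have := (k (pr (cv.add_smul_sub_mem ha hb m))).1.1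
    rw [q] at this
    exact ⟨this.1, this.2 _ (sub_ne_zero.2 n.symm)⟩) hs
  have q1 := q 1
  rw [one_smul, one_smul, add_sub_cancel] at q1
  rw [← q, ← q1] at m
  show min (ρ (e.symm (L.symm _))) (ρ (e.symm (L.symm _))) < ρ (e.symm (L.symm _))
  rw [r _ (pr ha), r _ (pr hb), r _ (pr hc')]
  exact min_lt_iff.2 ((min_lt_iff.1 m).imp Real.exp_lt_exp.2 Real.exp_lt_exp.2)

theorem Sub.sl (h : Sub ρ p) : Sl ρ p := by
  obtain ⟨E, _, _, _, F, _, _, _, e, G, G', hp, hG, sj, ev⟩ := h
  have := FiniteDimensional.complete ℝ E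
  let k := hG.implicitToOpenPartialHomeomorph G G' (LinearMap.range_eq_top.2 sj)
  have hp' : p ∈ (e.trans k).source := ⟨hp, hG.mem_implicitToOpenPartialHomeomorph_source _⟩
  obtain ⟨R, hR, m⟩ := nhds_basis_closedBall.eventually_iff.1
    ((((e.trans k).tendsto_symm hp').eventually ev).and
      ((e.trans k).open_target.mem_nhds ((e.trans k).map_source hp')))
  refine ⟨F, inferInstance, inferInstance, inferInstance, _, inferInstance, inferInstance,
    e.trans k, R, hR, hp', fun _ a => (m a).2, fun x a => (m a).1.trans ?_⟩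
  rw [show G (e ((e.trans k).symm x)) = x.1 from
    congrArg Prod.fst ((e.trans k).right_inv (m a).2)]

/-- **Lefschetz** -/
theorem Lf.push (h : Lf ρ) : Push ρ :=
  have := h.t2
  push_of h.cont h.nonneg h.cpt (fun p a => (h.top p a).bx) fun p a => (h.bot p a).sl

variable {Y : Type} [TopologicalSpace Y] {j : Y → W}

theorem Push.lift (h : Push ρ) (hj : Topology.IsEmbedding j) (r : ∀ w, ρ w = 0 ↔ w ∈ range j)
    (D : C(I × I, W)) : ∃ D' : C(I × I, Y), ∀ x y, D x = j y → D' x = y := by
  obtain ⟨D', a, b⟩ := h D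
  choose u hu using fun x => (r _).1 (a x)
  refine ⟨⟨u, hj.continuous_iff.2 ?_⟩, fun x y e => hj.injective ?_⟩
  · rw [show j ∘ u = D' from funext hu]; exact D'.continuous
  · exact (hu x).trans ((b x ((r _).2 ⟨y, e.symm⟩)).trans e)

/-- paths of the zero set which are homotopic in `W` are homotopic -/
theorem Push.inj (h : Push ρ) (hj : Topology.IsEmbedding j) (r : ∀ w, ρ w = 0 ↔ w ∈ range j)
    {a b : Y} {g g' : Path a b} (k : (g.map hj.continuous).Homotopic (g'.map hj.continuous)) :
    g.Homotopic g' := by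
  obtain ⟨H⟩ := k
  obtain ⟨D, hD⟩ := h.lift hj r H.toContinuousMap
  refine ⟨⟨⟨D, fun s => hD _ _ (H.apply_zero s), fun s => hD _ _ (H.apply_one s)⟩,
    fun t s m => hD _ _ (H.eq_fst t m)⟩⟩

/-- points of the zero set which are joined in `W` are joined -/
theorem Push.joined (h : Push ρ) (hj : Topology.IsEmbedding j) (r : ∀ w, ρ w = 0 ↔ w ∈ range j)
    {a b : Y} (k : Joined (j a) (j b)) : Joined a b := by
  obtain ⟨g⟩ := k
  obtain ⟨D, hD⟩ := h.lift hj r (g.toContinuousMap.comp ContinuousMap.fst)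
  exact ⟨⟨D.comp ⟨fun s => (s, 0), by fun_prop⟩, hD _ _ g.source, hD _ _ g.target⟩⟩

theorem Push.conn (h : Push ρ) (hj : Topology.IsEmbedding j) (r : ∀ w, ρ w = 0 ↔ w ∈ range j)
    [PathConnectedSpace W] [Nonempty Y] : PathConnectedSpace Y :=
  ⟨inferInstance, fun _ _ => h.joined hj r (PathConnectedSpace.joined _ _)⟩

end Vale.Agent.P300LF
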