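import Vale.Agent.P300LF.Defs

/-!
# P300L, block LEF: the local model
-/

set_option linter.all false

open scoped Topology unitInterval
open Set Filter Function Metric

noncomputable section

namespace Vale.Agent.P300LF

/-- the slices -/
abbrev N3 : Type := Fin 3 → ℝ

/-- general position: a map from the square to `ℝ³` can be moved off `0` -/
theorem avoid {S : Set (I × I)} (hS : IsClosed S) {g : I × I → N3} (hg : ContinuousOn g S) {δ : ℝ}
    (hδ : 0 < δ) : ∃ g' : I × I → N3, Continuous g' ∧ (∀ x, g' x ≠ 0) ∧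
      ∀ x ∈ S, ‖g' x - g x‖ < δ := by
  have c : Topology.IsClosedEmbedding (fun x : I × I => ((x.1 : ℝ), (x.2 : ℝ))) :=
    (isClosed_Icc.isClosedEmbedding_subtypeVal).prodMap isClosed_Icc.isClosedEmbedding_subtypeVal
  obtain ⟨G, hG⟩ := ContinuousMap.exists_extension' (c.comp hS.isClosedEmbedding_subtypeVal)
    (⟨S.restrict g, hg.restrict⟩ : C(S, N3))
  obtain ⟨p, hp, ap, -⟩ := G.continuous.exists_contDiff_approx 1 (ε := fun _ => δ / 2)
    continuous_const fun _ => half_pos hδ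
  obtain ⟨v, hv, rv⟩ := (hp.dense_compl_range_of_finrank_lt_finrank (by simp)).exists_mem_open
    isOpen_ball (nonempty_ball.2 (half_pos hδ) : (ball (0 : N3) (δ / 2)).Nonempty)
  refine ⟨fun x => p (x.1, x.2) - v, (hp.continuous.comp c.continuous).sub continuous_const,
    fun x h => hv ⟨_, sub_eq_zero.1 h⟩, fun x hx => ?_⟩
  have e : G ((x.1 : ℝ), (x.2 : ℝ)) = g x := congrFun hG ⟨x, hx⟩
  have a := ap ((x.1 : ℝ), (x.2 : ℝ))
  rw [e, dist_eq_norm] at a
  rw [sub_right_comm]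
  linarith [norm_sub_le (p (x.1, x.2) - g x) v, mem_ball_zero_iff.1 rv]

/-- strictly quasi concave -/
def QC (g : N3 → ℝ) (B : Set N3) : Prop :=
  ∀ a ∈ B, ∀ b ∈ B, a ≠ b → ∀ c ∈ openSegment ℝ a b, min (g a) (g b) < g c

theorem QC.rad {g : N3 → ℝ} {B : Set N3} (h : QC g B) (hB : Convex ℝ B) {μ s u : N3} {r τ : ℝ}
    (hμ : μ ∈ B) (m : IsMaxOn g B μ) (hr : 0 ≤ r) (e : s - μ = r • u) (hu : u ≠ 0) (hτ : 0 < τ)
    (hs : s + τ • u ∈ B) : g (s + τ • u) < g s := by
  have es : s = μ + r • u := by rw [← e]; abel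
  have hp : 0 < r + τ := by linarith
  have ne : μ ≠ s + τ • u := fun k => by
    have : (r + τ) • u = 0 := by
      rw [add_smul, ← e, ← sub_eq_zero.2 k.symm]; abel
    exact hu ((smul_eq_zero.1 this).resolve_left hp.ne')
  rcases hr.eq_or_lt with rfl | hr
  · have k := h _ hμ _ hs ne _ (midpoint_mem_openSegment μ _)
    have k2 : g (midpoint ℝ μ (s + τ • u)) ≤ g μ := m (hB.midpoint_mem hμ hs)
    rw [zero_smul, add_zero] at es
    rw [es] at k k2 ⊢
    rcases min_lt_iff.1 (k.trans_le k2) with a | a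
    · exact absurd a (lt_irrefl _)
    · exact a
  · have sg : s ∈ openSegment ℝ μ (s + τ • u) := by
      refine ⟨τ / (r + τ), r / (r + τ), by positivity, by positivity, by field_simp; ring, ?_⟩
      rw [es]
      ext k
      simp only [Pi.add_apply, Pi.smul_apply, smul_eq_mul]
      field_simp
      ring
    have k2 : g s ≤ g μ := m (hB.openSegment_subset hμ hs sg)
    rcases min_lt_iff.1 (h _ hμ _ hs ne _ sg) with a | a
    · exact absurd (a.trans_le k2) (lt_irrefl _)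
    · exact a

variable {T : Type} [NormedAddCommGroup T] {f : C(N3 × T, ℝ)} {T0 : Set T} {B : Set N3}

/-- the maximum on the slices depends continuously on the slice -/
theorem argmax (hT : IsClosed T0) (cB : IsCompact B) (hB : Convex ℝ B) (ne : B.Nonempty)
    (h : ∀ t ∈ T0, QC (fun s => f (s, t)) B) :
    ∃ μ : C(T, N3), ∀ t ∈ T0, μ t ∈ B ∧ IsMaxOn (fun s => f (s, t)) B (μ t) := by
  choose μ hμ m using fun t : T => cB.exists_isMaxOn ne (f := fun s => f (s, t)) (by fun_prop)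
  have c : ContinuousOn μ T0 := fun t ht => by
    refine cB.tendsto_nhds_of_unique_mapClusterPt (Eventually.of_forall hμ) fun y hy k => ?_
    obtain ⟨U, hU, k⟩ := mapClusterPt_iff_ultrafilter.1 k
    have k1 : Tendsto (fun t : T => t) U (𝓝 t) := hU.trans nhdsWithin_le_nhds
    have m' : f (μ t, t) ≤ f (y, t) :=
      le_of_tendsto_of_tendsto' ((f.continuous.tendsto _).comp (tendsto_const_nhds.prodMk_nhds k1))
        ((f.continuous.tendsto _).comp (k.prodMk_nhds k1)) fun t' => m t' (hμ t)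
    by_contra n
    have a := h t ht _ hy _ (hμ t) n _ (midpoint_mem_openSegment _ _)
    have b : f (midpoint ℝ y (μ t), t) ≤ f (μ t, t) := m t (hB.midpoint_mem hy (hμ t))
    rcases min_lt_iff.1 (a.trans_le b) with a | a
    · exact absurd (a.trans_le m') (lt_irrefl _)
    · exact absurd a (lt_irrefl _)
  obtain ⟨g, hg⟩ := ContinuousMap.exists_restrict_eq hT (⟨T0.restrict μ, c.restrict⟩ : C(T0, N3))
  refine ⟨g, fun t ht => ?_⟩
  rw [show g t = μ t from DFunLike.congr_fun hg ⟨t, ht⟩]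
  exact ⟨hμ t, m t⟩

/-- the radial push in the slices -/
theorem push {s0 : N3} {R τ : ℝ} (hT : IsCompact T0) (hτ : 0 < τ) (hR : τ ≤ R) (μ : C(T, N3))
    (h : ∀ t ∈ T0, QC (fun s => f (s, t)) (closedBall s0 (3 * R)))
    (m : ∀ t ∈ T0, μ t ∈ closedBall s0 (3 * R) ∧
      IsMaxOn (fun s => f (s, t)) (closedBall s0 (3 * R)) (μ t)) :
    ∃ η > 0, ∀ ε > 0, ∃ δ > 0, ∀ s ∈ closedBall s0 R, ∀ t ∈ T0, ∀ g : N3, g ≠ 0 →
      ‖g - (s - μ t)‖ < δ → ∀ b ∈ Icc (0 : ℝ) 1,
        f (s + (b * τ) • ‖g‖⁻¹ • g, t) ≤ f (s, t) + ε ∧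
        (b = 1 → f (s + (b * τ) • ‖g‖⁻¹ • g, t) ≤ f (s, t) - η + ε) := by
  have mv : ∀ {s u : N3} {a c : ℝ}, s ∈ closedBall s0 a → ‖u‖ = 1 → 0 ≤ c → c ≤ R →
      s + c • u ∈ closedBall s0 (a + R) := fun {s u a c} hs hu h0 hc => by
    have : dist (s + c • u) s ≤ R := by
      rwa [dist_eq_norm, add_sub_cancel_left, norm_smul, hu, mul_one, Real.norm_of_nonneg h0]
    exact mem_closedBall.2 ((dist_triangle _ s _).trans (by linarith [mem_closedBall.1 hs]))
  have rad : ∀ {s u : N3} {t : T} {c : ℝ}, s ∈ closedBall s0 (2 * R) → t ∈ T0 → ‖u‖ = 1 →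
      s - μ t = ‖s - μ t‖ • u → 0 < c → c ≤ R → f (s + c • u, t) < f (s, t) :=
    fun {s u t c} hs ht hu e h0 hc => (h t ht).rad (convex_closedBall _ _) (m t ht).1 (m t ht).2
      (norm_nonneg _) e (fun k => by simp [k] at hu) h0
      (by simpa only [show 2 * R + R = 3 * R by ring] using mv hs hu h0.le hc)
  have cZ : IsCompact (((closedBall s0 (2 * R) ×ˢ T0) ×ˢ sphere (0 : N3) 1) ∩
      {z | z.1.1 - μ z.1.2 = ‖z.1.1 - μ z.1.2‖ • z.2}) :=
    (((isCompact_closedBall _ _).prod hT).prod (isCompact_sphere _ _)).inter_right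
      (isClosed_eq (by fun_prop) (by fun_prop))
  obtain ⟨η, h0, hη⟩ := cZ.exists_forall_le' (a := 0)
    (f := fun z => f z.1 - f (z.1.1 + τ • z.2, z.1.2)) (by fun_prop) fun z hz =>
      sub_pos.2 (rad hz.1.1.1 hz.1.1.2 (mem_sphere_zero_iff_norm.1 hz.1.2) hz.2 hτ hR)
  refine ⟨η, h0, fun ε hε => ?_⟩
  obtain ⟨δ, hδ, uc⟩ := Metric.uniformContinuousOn_iff.1
    (((isCompact_closedBall s0 (3 * R)).prod hT).uniformContinuousOn_of_continuous
      f.continuous.continuousOn) _ (half_pos hε)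
  have R0 := hτ.trans_le hR
  refine ⟨min δ R, lt_min hδ R0, fun s hs t ht g g0 hg b hb => ?_⟩
  have gp := norm_pos_iff.2 g0
  have hu : ‖‖g‖⁻¹ • g‖ = 1 := by rw [norm_smul, norm_inv, norm_norm, inv_mul_cancel₀ gp.ne']
  have d : dist (μ t + g) s < min δ R := by
    rwa [dist_eq_norm, show μ t + g - s = g - (s - μ t) by abel]
  have s1 : μ t + g ∈ closedBall s0 (2 * R) := mem_closedBall.2
    ((dist_triangle _ s _).trans (by linarith [mem_closedBall.1 hs, (lt_min_iff.1 d).2]))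
  have e : μ t + g - μ t = ‖μ t + g - μ t‖ • ‖g‖⁻¹ • g := by
    rw [add_sub_cancel_left, smul_smul, mul_inv_cancel₀ gp.ne', one_smul]
  have c0 : 0 ≤ b * τ := mul_nonneg hb.1 hτ.le
  have c1 : b * τ ≤ R := (mul_le_of_le_one_left hτ.le hb.2).trans hR
  have sub : ∀ {a : ℝ} {x : N3}, x ∈ closedBall s0 a → a ≤ 3 * R → x ∈ closedBall s0 (3 * R) :=
    fun a b => closedBall_subset_closedBall b a
  have u1 := uc (μ t + g, t) ⟨sub s1 (by linarith), ht⟩ (s, t) ⟨sub hs (by linarith), ht⟩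
    (by simpa using (lt_min_iff.1 d).1)
  have u2 := uc (μ t + g + (b * τ) • ‖g‖⁻¹ • g, t) ⟨sub (mv s1 hu c0 c1) (by linarith), ht⟩
    (s + (b * τ) • ‖g‖⁻¹ • g, t) ⟨sub (mv hs hu c0 c1) (by linarith), ht⟩
    (by simpa using (lt_min_iff.1 d).1)
  rw [Real.dist_eq, abs_lt] at u1 u2
  refine ⟨?_, fun b1 => ?_⟩
  · rcases c0.eq_or_lt with k | k
    · rw [← k, zero_smul, add_zero]; linarith
    · linarith [rad s1 ht hu e k c1]
  · have := hη ((μ t + g, t), ‖g‖⁻¹ • g) ⟨⟨⟨s1, ht⟩, mem_sphere_zero_iff_norm.2 hu⟩, e⟩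
    rw [b1, one_mul] at u2 ⊢
    linarith

end Vale.Agent.P300LF
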