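import Vale.Agent.P300LF.Mdl

/-!
# P300L, block LEF: pushing squares down
-/

set_option linter.all false

open scoped Topology unitInterval
open Set Filter Function Metric

noncomputable section

namespace Vale.Agent.P300LF

variable {W : Type} [TopologicalSpace W] [T2Space W] {ρ : W → ℝ} {p : W}

/-- modification of a map inside a chart -/
theorem modify {Q M : Type} [TopologicalSpace Q] [TopologicalSpace M]
    (e : OpenPartialHomeomorph W M) {K : Set M} (hK : IsCompact K) (sK : K ⊆ e.target)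
    (D : C(Q, W)) {Φ : Q → M} (c : ContinuousOn Φ (D ⁻¹' e.source))
    (t : ∀ x, D x ∈ e.source → e (D x) ∈ K → Φ x ∈ e.target)
    (o : ∀ x, D x ∈ e.source → e (D x) ∉ K → Φ x = e (D x)) :
    ∃ D' : C(Q, W), ∀ x, (D x ∈ e.source ∧ e (D x) ∈ K ∧ D' x = e.symm (Φ x)) ∨
      (¬ (D x ∈ e.source ∧ e (D x) ∈ K) ∧ D' x = D x) := by
  classical
  let F : Q → W := fun x => if D x ∈ e.source then e.symm (Φ x) else D x
  have k : ∀ x, ¬ (D x ∈ e.source ∧ e (D x) ∈ K) → F x = D x := fun x h => by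
    by_cases a : D x ∈ e.source
    · simp only [F, if_pos a, o x a fun b => h ⟨a, b⟩, e.left_inv a]
    · exact if_neg a
  have cl : IsClosed (e.symm '' K) := (hK.image_of_continuousOn (e.continuousOn_symm.mono sK)).isClosed
  refine ⟨⟨F, continuous_iff_continuousAt.2 fun x => ?_⟩, fun x => ?_⟩
  · by_cases a : D x ∈ e.source
    · have n := D.continuous.continuousAt.preimage_mem_nhds (e.open_source.mem_nhds a)
      have b : Φ x ∈ e.target := by
        by_cases b : e (D x) ∈ K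
        · exact t x a b
        · exact o x a b ▸ e.map_source a
      exact ((e.continuousAt_symm b).comp (c.continuousAt n)).congr
        (eventually_of_mem n fun y hy => (if_pos hy).symm)
    · have n : D x ∈ (e.symm '' K)ᶜ := fun ⟨m, hm, b⟩ => a (b ▸ e.map_target (sK hm))
      exact D.continuous.continuousAt.congr (eventually_of_mem
        (D.continuous.continuousAt.preimage_mem_nhds (cl.isOpen_compl.mem_nhds n))
        fun y hy => (k y fun b => hy ⟨_, b.2, e.left_inv b.1⟩).symm)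
  · by_cases a : D x ∈ e.source ∧ e (D x) ∈ K
    · exact Or.inl ⟨a.1, a.2, if_pos a.1⟩
    · exact Or.inr ⟨a, k x a⟩

theorem bump {M : Type} [MetricSpace M] (m : M) {R : ℝ} (hR : 0 < R) :
    ∃ β : C(M, ℝ), EqOn β 0 (ball m R)ᶜ ∧ EqOn β 1 (closedBall m (R / 2)) ∧
      ∀ x, β x ∈ Icc (0 : ℝ) 1 :=
  exists_continuous_zero_one_of_isClosed isOpen_ball.isClosed_compl isClosed_closedBall
    (disjoint_left.2 fun _ a b => a (closedBall_subset_ball (by linarith) b))

/-- a box with quasi concave slices -/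
def Bx (ρ : W → ℝ) (p : W) : Prop :=
  ∃ (T : Type) (_ : NormedAddCommGroup T) (_ : ProperSpace T)
    (e : OpenPartialHomeomorph W (N3 × T)) (R : ℝ), 0 < R ∧ p ∈ e.source ∧
    closedBall (e p) (3 * R) ⊆ e.target ∧ (∀ m ∈ closedBall (e p) (3 * R), ρ (e.symm m) ≠ 0) ∧
    ∀ t ∈ closedBall (e p).2 (3 * R), QC (fun s => ρ (e.symm (s, t))) (closedBall (e p).1 (3 * R))

/-- `D'` is lower than `D` -/
def Mv (ρ : W → ℝ) (η ε : ℝ) (C : Set W) (D D' : C(I × I, W)) : Prop :=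
  ∀ x, (ρ (D x) = 0 → D' x = D x) ∧ ρ (D' x) ≤ ρ (D x) + ε ∧
    (D x ∈ C → ρ (D' x) ≤ ρ (D x) - η + ε)

theorem Bx.step (hρ : Continuous ρ) (h : Bx ρ p) : ∃ O, IsOpen O ∧ p ∈ O ∧
    ∀ C G, IsCompact C → IsOpen G → C ⊆ G → ∃ η > 0, ∀ ε > 0, ∀ D, ∃ D',
      Mv ρ η ε O D D' ∧ ∀ x, D x ∈ C → D' x ∈ G := by
  obtain ⟨T, _, _, e, R, hR, hp, st, r0, qc⟩ := h
  obtain ⟨f, hf⟩ := ContinuousMap.exists_restrict_eq isClosed_closedBall
    (⟨(closedBall (e p) (3 * R)).restrict fun m => ρ (e.symm m),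
      (hρ.comp_continuousOn (e.continuousOn_symm.mono st)).restrict⟩ : C(_, ℝ))
  have ef : ∀ m ∈ closedBall (e p) (3 * R), f m = ρ (e.symm m) := fun m a =>
    DFunLike.congr_fun hf ⟨m, a⟩
  have pr : ∀ {m : N3 × T} {r : ℝ}, m ∈ closedBall (e p) r ↔
      m.1 ∈ closedBall (e p).1 r ∧ m.2 ∈ closedBall (e p).2 r := fun {m r} => by
    rw [← closedBall_prod_same]; rfl
  have qf : ∀ t ∈ closedBall (e p).2 (3 * R), QC (fun s => f (s, t)) (closedBall (e p).1 (3 * R)) :=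
    fun t ht a ha b hb n c hc => by
      have := qc t ht a ha b hb n c hc
      simp only [ef (a, t) (pr.2 ⟨ha, ht⟩), ef (b, t) (pr.2 ⟨hb, ht⟩),
        ef (c, t) (pr.2 ⟨(convex_closedBall _ _).openSegment_subset ha hb hc, ht⟩)]
      exact this
  obtain ⟨μ, hμ⟩ := argmax isClosed_closedBall (isCompact_closedBall _ _) (convex_closedBall _ _)
    (nonempty_closedBall.2 (by linarith)) qf
  obtain ⟨β, b0, b1, bI⟩ := bump (e p) hR
  have s3 : closedBall (e p) R ⊆ closedBall (e p) (3 * R) := closedBall_subset_closedBall (by linarith)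
  have sK := s3.trans st
  have cK := isCompact_closedBall (e p) R
  refine ⟨e.source ∩ e ⁻¹' ball (e p) (R / 2), e.isOpen_inter_preimage isOpen_ball,
    ⟨hp, mem_ball_self (half_pos hR)⟩, fun C G hC hG sG => ?_⟩
  obtain ⟨τ0, t0, th⟩ := (cK.of_isClosed_subset ((e.continuousOn_symm.mono sK).preimage_isClosed_of_isClosed
    isClosed_closedBall hC.isClosed) inter_subset_left).exists_cthickening_subset_open
    (e.symm.isOpen_inter_preimage hG) fun m a => ⟨sK a.1, sG a.2⟩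
  have hτ := lt_min t0 hR
  obtain ⟨η, hη, k⟩ := push (isCompact_closedBall _ _) hτ (min_le_right _ _) μ qf hμ
  refine ⟨η, hη, fun ε hε D => ?_⟩
  obtain ⟨δ, hδ, k⟩ := k ε hε
  have ce : ContinuousOn (fun x => e (D x)) (D ⁻¹' e.source) :=
    e.continuousOn.comp D.continuous.continuousOn fun _ a => a
  obtain ⟨g, cg, g0, hg⟩ := avoid (g := fun x => (e (D x)).1 - μ (e (D x)).2)
    ((cK.image_of_continuousOn (e.continuousOn_symm.mono sK)).isClosed.preimage D.continuous)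
    ((ce.fst.sub (μ.continuous.comp_continuousOn ce.snd)).mono
      fun x ⟨m, a, b⟩ => by rw [mem_preimage, ← b]; exact e.map_target (sK a)) hδ
  have d : ∀ x, dist ((e (D x)).1 + (β (e (D x)) * min τ0 R) • ‖g x‖⁻¹ • g x, (e (D x)).2)
      (e (D x)) ≤ min τ0 R := fun x => by
    rw [Prod.dist_eq, dist_self, dist_eq_norm, add_sub_cancel_left, norm_smul, norm_smul, norm_inv,
      norm_norm, inv_mul_cancel₀ (norm_ne_zero_iff.2 (g0 x)), mul_one,
      Real.norm_of_nonneg (mul_nonneg (bI _).1 hτ.le)]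
    exact max_le (mul_le_of_le_one_left hτ.le (bI _).2) hτ.le
  have d3 : ∀ x, e (D x) ∈ closedBall (e p) R → ((e (D x)).1 + (β (e (D x)) * min τ0 R) •
      ‖g x‖⁻¹ • g x, (e (D x)).2) ∈ closedBall (e p) (3 * R) := fun x a =>
    mem_closedBall.2 ((dist_triangle _ (e (D x)) _).trans
      (by linarith [d x, min_le_right τ0 R, mem_closedBall.1 a]))
  obtain ⟨D', hD⟩ := modify e cK sK D
    (Φ := fun x => ((e (D x)).1 + (β (e (D x)) * min τ0 R) • ‖g x‖⁻¹ • g x, (e (D x)).2))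
    ((ce.fst.add (((β.continuous.comp_continuousOn ce).mul continuousOn_const).smul
      ((cg.norm.inv₀ fun x => norm_ne_zero_iff.2 (g0 x)).smul cg).continuousOn)).prodMk ce.snd)
    (fun x _ a => st (d3 x a)) fun x _ a => by
      rw [b0 fun b => a (ball_subset_closedBall b)]; simp
  refine ⟨D', fun x => ?_, fun x hx => ?_⟩
  · rcases hD x with ⟨a, b, c⟩ | ⟨a, c⟩
    · have u : ρ (D x) = f (e (D x)) := by rw [ef _ (s3 b), e.left_inv a]
      have k := k _ (pr.1 b).1 _ (pr.1 (s3 b)).2 _ (g0 x) (hg x ⟨_, b, e.left_inv a⟩) _ (bI (e (D x)))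
      rw [ef _ (d3 x b), ← c] at k
      refine ⟨fun z => absurd (by rwa [e.left_inv a]) (r0 _ (s3 b)), u ▸ k.1, fun z => ?_⟩
      exact u ▸ k.2 (b1 (ball_subset_closedBall z.2))
    · exact ⟨fun _ => c, by rw [c]; linarith, fun z => absurd ⟨z.1, closedBall_subset_closedBall
        (by linarith) (ball_subset_closedBall z.2)⟩ a⟩
  · rcases hD x with ⟨a, b, c⟩ | ⟨a, c⟩
    · rw [c]
      exact (th (mem_cthickening_of_dist_le _ _ _ _ ⟨b, by rwa [mem_preimage, e.left_inv a]⟩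
        ((d x).trans (min_le_left _ _)))).2
    · exact c ▸ sG hx

theorem drop [LocallyCompactSpace W] (hρ : Continuous ρ) {C : Set W} (hC : IsCompact C)
    (h : ∀ p ∈ C, Bx ρ p) : ∃ η > 0, ∀ ε > 0, ∀ D, ∃ D', Mv ρ η ε C D D' := by
  classical
  choose! O oO pO st using fun p hp => (h p hp).step hρ
  obtain ⟨t, ht, sub⟩ := hC.elim_nhds_subcover O fun p hp => (oO p hp).mem_nhds (pO p hp)
  suffices k : ∀ C', IsCompact C' → C' ⊆ ⋃ p ∈ t, O p → ∃ η > 0, ∀ ε > 0, ∀ D, ∃ D',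
    Mv ρ η ε C' D D' from k C hC sub
  clear sub
  induction t using Finset.induction_on with
  | empty => exact fun C' _ s => ⟨1, one_pos, fun ε hε D => ⟨D, fun x =>
      ⟨fun _ => rfl, by linarith, fun a => absurd (s a) (by simp)⟩⟩⟩
  | insert q t _ ih =>
    intro C' hC' s
    have hq := ht q (Finset.mem_insert_self _ _)
    have ht' : ∀ p ∈ t, p ∈ C := fun p a => ht p (Finset.mem_insert_of_mem a)
    have op : IsOpen (⋃ p ∈ t, O p) := isOpen_biUnion fun p a => oO p (ht' p a)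
    rw [Finset.set_biUnion_insert] at s
    obtain ⟨C1, C2, -, c2, s1, s2, rfl⟩ := hC'.binary_compact_cover (oO q hq) op s
    obtain ⟨L, cL, i, sL⟩ := exists_compact_between c2 op s2
    obtain ⟨η1, h1, k1⟩ := st q hq C2 _ c2 isOpen_interior i
    obtain ⟨η2, h2, k2⟩ := ih ht' L cL sL
    refine ⟨min η1 η2, lt_min h1 h2, fun ε hε D => ?_⟩
    obtain ⟨D1, m1, n1⟩ := k1 _ (half_pos hε) D
    obtain ⟨D2, m2⟩ := k2 _ (half_pos hε) D1
    refine ⟨D2, fun x => ⟨fun a => ?_, by linarith [(m1 x).2.1, (m2 x).2.1], fun a => ?_⟩⟩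
    · rw [(m2 x).1 (by rwa [(m1 x).1 a]), (m1 x).1 a]
    · rcases a with a | a
      · linarith [(m1 x).2.2 (s1 a), (m2 x).2.1, min_le_left η1 η2]
      · linarith [(m1 x).2.1, (m2 x).2.2 (interior_subset (n1 x a)), min_le_right η1 η2]

theorem lc (hρ : Continuous ρ) (hc : ∀ c, IsCompact {w | ρ w ≤ c}) : LocallyCompactSpace W :=
  have : WeaklyLocallyCompactSpace W := ⟨fun p => ⟨_, hc (ρ p + 1), mem_of_superset
    ((isOpen_lt hρ continuous_const).mem_nhds (lt_add_one (ρ p))) fun w (a : ρ w < _) => a.le⟩⟩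
  inferInstance

/-- squares can be pushed below any positive level -/
theorem down (hρ : Continuous ρ) (hc : ∀ c, IsCompact {w | ρ w ≤ c}) (h : ∀ p, 0 < ρ p → Bx ρ p)
    {a : ℝ} (ha : 0 < a) (D : C(I × I, W)) :
    ∃ D' : C(I × I, W), ∀ x, (ρ (D x) = 0 → D' x = D x) ∧ ρ (D' x) ≤ a := by
  have := lc hρ hc
  obtain ⟨b0, hb⟩ := (isCompact_range (hρ.comp D.continuous)).bddAbove
  obtain ⟨η, hη, k⟩ := drop hρ ((hc (max a b0)).inter_right (isClosed_le continuous_const hρ :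
    IsClosed {w | a / 2 ≤ ρ w})) fun p hp => h p ((half_pos ha).trans_le hp.2)
  have s : ∀ n : ℕ, ∃ D' : C(I × I, W), ∀ x, (ρ (D x) = 0 → D' x = D x) ∧
      ρ (D' x) ≤ max a (b0 - n * (η / 2)) := fun n => by
    induction n with
    | zero => exact ⟨D, fun x => ⟨fun _ => rfl, le_max_of_le_right (by simpa using hb ⟨x, rfl⟩)⟩⟩
    | succ n ih =>
      obtain ⟨D1, m1⟩ := ih
      obtain ⟨D2, m2⟩ := k _ (lt_min (half_pos ha) (half_pos hη)) D1
      refine ⟨D2, fun x => ⟨fun z => ?_, ?_⟩⟩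
      · rw [(m2 x).1 (by rwa [(m1 x).1 z]), (m1 x).1 z]
      · have p1 := min_le_left (a / 2) (η / 2)
        have p2 := min_le_right (a / 2) (η / 2)
        by_cases z : a / 2 ≤ ρ (D1 x)
        · have y := (m2 x).2.2 ⟨(m1 x).2.trans (max_le_max le_rfl (sub_le_self _ (by positivity))), z⟩
          rcases le_max_iff.1 (m1 x).2 with w | w
          · exact le_max_of_le_left (by linarith)
          · exact le_max_of_le_right (by push_cast; linarith)
        · exact le_max_of_le_left (by linarith [(m2 x).2.1, not_le.1 z])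
  obtain ⟨n, hn⟩ := exists_nat_ge (b0 / (η / 2))
  obtain ⟨D', m⟩ := s n
  rw [div_le_iff₀ (half_pos hη)] at hn
  exact ⟨D', fun x => ⟨(m x).1, (m x).2.trans (max_le le_rfl (by linarith))⟩⟩

/-- a box in which the zero set is a slice -/
def Sl (ρ : W → ℝ) (p : W) : Prop :=
  ∃ (F : Type) (_ : NormedAddCommGroup F) (_ : NormedSpace ℝ F) (_ : ProperSpace F)
    (T : Type) (_ : NormedAddCommGroup T) (_ : ProperSpace T)
    (e : OpenPartialHomeomorph W (F × T)) (R : ℝ), 0 < R ∧ p ∈ e.source ∧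
    closedBall (e p) R ⊆ e.target ∧ ∀ m ∈ closedBall (e p) R, (ρ (e.symm m) = 0 ↔ m.1 = 0)

theorem Sl.ret (h : Sl ρ p) (h0 : ρ p = 0) :
    ∃ r : C(W, W), (∀ w, ρ w = 0 → r w = w) ∧ ∀ᶠ w in 𝓝 p, ρ (r w) = 0 := by
  obtain ⟨F, _, _, _, T, _, _, e, R, hR, hp, st, z⟩ := h
  obtain ⟨β, b0, b1, bI⟩ := bump (e p) hR
  have p0 : (e p).1 = 0 := (z _ (mem_closedBall_self hR.le)).1 (by rwa [e.left_inv hp])
  have d : ∀ m ∈ closedBall (e p) R, ((1 - β m) • m.1, m.2) ∈ closedBall (e p) R := fun m a => by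
    rw [← closedBall_prod_same, p0] at a ⊢
    refine ⟨mem_closedBall_zero_iff.2 ?_, a.2⟩
    rw [norm_smul, Real.norm_of_nonneg (sub_nonneg.2 (bI m).2)]
    exact (mul_le_of_le_one_left (norm_nonneg _) (sub_le_self _ (bI m).1)).trans
      (mem_closedBall_zero_iff.1 a.1)
  have ce := e.continuousOn
  obtain ⟨r, hr⟩ := modify e (isCompact_closedBall _ R) st (ContinuousMap.id W)
    (Φ := fun w => ((1 - β (e w)) • (e w).1, (e w).2))
    (((continuousOn_const.sub (β.continuous.comp_continuousOn ce)).smul ce.fst).prodMk ce.snd)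
    (fun w _ a => st (d _ a)) fun w _ (a : e w ∉ _) => by
      rw [b0 fun b => a (ball_subset_closedBall b)]; simp
  refine ⟨r, fun w a => ?_, ?_⟩
  · rcases hr w with ⟨s, b, c⟩ | ⟨-, c⟩
    · have y : (e w).1 = 0 := (z _ b).1 (by rwa [show e.symm (e (ContinuousMap.id W w)) = w from e.left_inv s])
      rw [c, y, smul_zero, ← y]
      exact e.left_inv s
    · exact c
  · filter_upwards [(e.isOpen_inter_preimage isOpen_ball).mem_nhds
      ⟨hp, mem_ball_self (half_pos hR)⟩] with w a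
    rcases hr w with ⟨s, b, c⟩ | ⟨b, -⟩
    · rw [c]
      exact (z _ (d _ b)).2 (by simp [b1 (ball_subset_closedBall a.2)])
    · exact absurd ⟨a.1, closedBall_subset_closedBall (by linarith) (ball_subset_closedBall a.2)⟩ b

/-- a retraction of a sublevel set onto the zero set -/
theorem retr (hρ : Continuous ρ) (h0 : ∀ w, 0 ≤ ρ w) (hc : ∀ c, IsCompact {w | ρ w ≤ c})
    (h : ∀ p, ρ p = 0 → Sl ρ p) : ∃ a > 0, ∃ r : C(W, W), (∀ w, ρ w = 0 → r w = w) ∧
      ∀ w, ρ w ≤ a → ρ (r w) = 0 := by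
  obtain ⟨r, h1, h2⟩ := (hc 0).induction_on (p := fun A => ∃ r : C(W, W),
    (∀ w, ρ w = 0 → r w = w) ∧ ∀ y ∈ A, ρ y = 0 → ∀ᶠ w in 𝓝 y, ρ (r w) = 0)
    ⟨.id W, fun _ _ => rfl, by simp⟩ (fun _ _ s ⟨r, a, b⟩ => ⟨r, a, fun y m => b y (s m)⟩)
    (fun _ _ ⟨r, a, b⟩ ⟨r', a', b'⟩ => ⟨r'.comp r, fun w z => by simp [a w z, a' w z],
      fun y m z => m.elim (fun m => (b y m z).mono fun w k => by simp [a' _ k, k])
        fun m => (r.continuous.tendsto' y y (a y z)).eventually (b' y m z)⟩)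
    fun y m => by
      have z := le_antisymm m (h0 y)
      obtain ⟨r, a, b⟩ := (h y z).ret z
      exact ⟨_, mem_nhdsWithin_of_mem_nhds b.eventually_nhds, r, a, fun _ m _ => m⟩
  obtain ⟨a, ha, k⟩ := ((hc 1).diff (isOpen_interior (s := {w | ρ (r w) = 0}))).exists_forall_le'
    hρ.continuousOn (a := 0) fun w m => (h0 w).lt_of_ne fun z =>
      m.2 (mem_interior_iff_mem_nhds.2 (h2 w z.ge z.symm))
  refine ⟨min (a / 2) 1, lt_min (half_pos ha) one_pos, r, h1, fun w m => ?_⟩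
  by_contra n
  linarith [k w ⟨m.trans (min_le_right _ _), fun z => n (interior_subset (s := {w | ρ (r w) = 0}) z)⟩, min_le_left (a / 2) 1]

theorem push_of (hρ : Continuous ρ) (h0 : ∀ w, 0 ≤ ρ w) (hc : ∀ c, IsCompact {w | ρ w ≤ c})
    (top : ∀ p, 0 < ρ p → Bx ρ p) (bot : ∀ p, ρ p = 0 → Sl ρ p) : Push ρ := fun D => by
  obtain ⟨a, ha, r, h1, h2⟩ := retr hρ h0 hc bot
  obtain ⟨D', m⟩ := down hρ hc top ha D
  exact ⟨r.comp D', fun x => h2 _ (m x).2, fun x z => by simp [(m x).1 z, h1 _ z]⟩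

end Vale.Agent.P300LF
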